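import Vale.Agent.P339.R2.H375.Defs

/-!
P339: the bound for the two local tests (module AN).
-/

namespace Vale.Agent.P339.R2.H375

open Finset Vale.Agent.Lib.PCP Vale.Agent.Lib.PCP.HA Vale.Agent.P339.H283 Vale.Agent.P339.H937

variable {l k nA : ℕ}

/-- The vectors are generic for the list of the centre table. -/
def GenT (HG : Finset ((Fin k × Fin nA → ZMod 2) × K l)) (θ0 θ1 : K l) : Prop :=
  θ0 ≠ θ1 ∧ ∀ h ∈ HG, ∀ h' ∈ HG, h.1 = h'.1 →
    h.2 + h'.2 ≠ θ0 ∧ h.2 + h'.2 ≠ θ1 ∧ h.2 + h'.2 ≠ θ0 + θ1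

end Vale.Agent.P339.R2.H375

namespace Vale.Agent.P339.R2.H620

open Finset Vale.Agent.Lib.PCP Vale.Agent.Lib.PCP.HA Vale.Agent.P339.H283 Vale.Agent.P339.H937
  Vale.Agent.P339.R2.H375

variable {l k nA : ℕ}

lemma th_zero (θ0 θ1 : K l) : th θ0 θ1 0 = θ0 := if_pos rfl

lemma th_one (θ0 θ1 : K l) : th θ0 θ1 1 = θ1 := if_neg (by decide)

lemma th_add (θ0 θ1 : K l) (β : ZMod 2) : th θ0 θ1 β + th θ0 θ1 (β + 1) = θ0 + θ1 := by
  rcases bit_cases β with rfl | rfl
  · rw [zero_add, th_zero, th_one]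
  · have h11 : (1 : ZMod 2) + 1 = 0 := by decide
    rw [h11, th_zero, th_one, add_comm]

lemma th_ne {θ0 θ1 : K l} (h : θ0 ≠ θ1) (β : ZMod 2) : th θ0 θ1 β ≠ th θ0 θ1 (β + 1) := by
  rcases bit_cases β with rfl | rfl
  · rw [zero_add, th_zero, th_one]
    exact h
  · have h11 : (1 : ZMod 2) + 1 = 0 := by decide
    rw [h11, th_zero, th_one]
    exact h.symm

lemma th_ne_zero {θ0 θ1 : K l} (h0 : θ0 ≠ 0) (h1 : θ1 ≠ 0) (β : ZMod 2) : th θ0 θ1 β ≠ 0 := by
  rcases bit_cases β with rfl | rfl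
  · rw [th_zero]
    exact h0
  · rw [th_one]
    exact h1

lemma aff_shift (t : Fin k × Fin nA → ZMod 2) (v z : K l) (M : Fin k × Fin nA → K l) :
    aff (t, v + z) M = aff (t, v) M + z := by
  unfold aff
  rw [add_assoc]

/-- The table of the second kind agrees at `M` with the affine function `g`, up to the vector of
the side. -/
def Ev (R : (Fin k × Fin nA → K l) → K l × ZMod 2) (θ0 θ1 : K l) (β : ZMod 2)
    (g : (Fin k × Fin nA → ZMod 2) × K l) (M : Fin k × Fin nA → K l) : Prop :=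
  (R M).2 = β ∧ ((R M).1 + aff g M = 0 ∨ (R M).1 + aff g M = th θ0 θ1 β)

instance (R : (Fin k × Fin nA → K l) → K l × ZMod 2) (θ0 θ1 : K l) (β : ZMod 2)
    (g : (Fin k × Fin nA → ZMod 2) × K l) (M : Fin k × Fin nA → K l) :
    Decidable (Ev R θ0 θ1 β g M) := by
  unfold Ev
  infer_instance

/-- The other function of a class. -/
def sh (θ0 θ1 : K l) (β : ZMod 2) (h : (Fin k × Fin nA → ZMod 2) × K l) :
    (Fin k × Fin nA → ZMod 2) × K l := (h.1, h.2 + th θ0 θ1 (β + 1))

lemma aff_sh (θ0 θ1 : K l) (β : ZMod 2) (h : (Fin k × Fin nA → ZMod 2) × K l)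
    (M : Fin k × Fin nA → K l) : aff (sh θ0 θ1 β h) M = aff h M + th θ0 θ1 (β + 1) :=
  aff_shift h.1 h.2 _ M

lemma cov_con {R : (Fin k × Fin nA → K l) → K l × ZMod 2} {j : Fin k} {w : Fin nA → ZMod 2}
    {θ0 θ1 : K l} {β : ZMod 2} {h : (Fin k × Fin nA → ZMod 2) × K l} (hc : Con j w β h.1)
    (M : Fin k × Fin nA → K l) : Cov R j w θ0 θ1 β h M ↔ Ev R θ0 θ1 β h M := by
  unfold Cov InG Ev
  constructor
  · rintro ⟨h1, h2 | h2 | h2⟩
    · exact ⟨h1, Or.inl h2⟩
    · exact ⟨h1, Or.inr h2⟩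
    · exact absurd hc h2.1
  · rintro ⟨h1, h2 | h2⟩
    · exact ⟨h1, Or.inl h2⟩
    · exact ⟨h1, Or.inr (Or.inl h2)⟩

lemma ev_cov {R : (Fin k × Fin nA → K l) → K l × ZMod 2} {j : Fin k} {w : Fin nA → ZMod 2}
    {θ0 θ1 : K l} {β : ZMod 2} {h : (Fin k × Fin nA → ZMod 2) × K l}
    {M : Fin k × Fin nA → K l} (h1 : Ev R θ0 θ1 β h M) : Cov R j w θ0 θ1 β h M := by
  obtain ⟨h1, h2 | h2⟩ := h1
  · exact ⟨h1, Or.inl h2⟩
  · exact ⟨h1, Or.inr (Or.inl h2)⟩

lemma sh_iff (R : (Fin k × Fin nA → K l) → K l × ZMod 2) (θ0 θ1 : K l) (β : ZMod 2)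
    (h : (Fin k × Fin nA → ZMod 2) × K l) (M : Fin k × Fin nA → K l) :
    Ev R θ0 θ1 β (sh θ0 θ1 β h) M ↔ (R M).2 = β ∧ ((R M).1 + aff h M = th θ0 θ1 (β + 1) ∨
      (R M).1 + aff h M = θ0 + θ1) := by
  unfold Ev
  rw [aff_sh, ← add_assoc]
  have e1 : ∀ z : K l, (R M).1 + aff h M + th θ0 θ1 (β + 1) = z ↔
      (R M).1 + aff h M = z + th θ0 θ1 (β + 1) := by
    intro z
    constructor
    · intro h1
      rw [← h1, add_assoc, K_add_self, add_zero]
    · intro h1
      rw [h1, add_assoc, K_add_self, add_zero]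
  rw [e1, e1, zero_add, th_add]

lemma sh_cov {R : (Fin k × Fin nA → K l) → K l × ZMod 2} {j : Fin k} {w : Fin nA → ZMod 2}
    {θ0 θ1 : K l} {β : ZMod 2} {h : (Fin k × Fin nA → ZMod 2) × K l} (hc : ¬ Con j w β h.1)
    {M : Fin k × Fin nA → K l} (h1 : Ev R θ0 θ1 β (sh θ0 θ1 β h) M) :
    Cov R j w θ0 θ1 β h M := by
  rw [sh_iff] at h1
  exact ⟨h1.1, Or.inr (Or.inr ⟨hc, h1.2⟩)⟩

/-- A class which is not compatible with the side is the disjoint union of its two functions. -/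
lemma ind_cov_not_con {R : (Fin k × Fin nA → K l) → K l × ZMod 2} {j : Fin k}
    {w : Fin nA → ZMod 2} {θ0 θ1 : K l} (h0 : θ0 ≠ 0) (h1 : θ1 ≠ 0) (h01 : θ0 ≠ θ1)
    {β : ZMod 2} {h : (Fin k × Fin nA → ZMod 2) × K l} (hc : ¬ Con j w β h.1)
    (M : Fin k × Fin nA → K l) :
    ind (Cov R j w θ0 θ1 β h M) = ind (Ev R θ0 θ1 β h M) +
      ind (Ev R θ0 θ1 β (sh θ0 θ1 β h) M) := by
  have hs := sh_iff R θ0 θ1 β h M
  by_cases hE : Ev R θ0 θ1 β h M
  · have hE' : ¬ Ev R θ0 θ1 β (sh θ0 θ1 β h) M := by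
      rw [hs]
      rintro ⟨_, h2⟩
      have hβ := th_ne_zero h0 h1 β
      have hβ1 := th_ne_zero h0 h1 (β + 1)
      have hne := th_ne h01 β
      obtain ⟨_, h3⟩ := hE
      rw [← th_add θ0 θ1 β] at h2
      rcases h3 with h3 | h3 <;> rw [h3] at h2 <;> rcases h2 with h2 | h2
      · exact hβ1 h2.symm
      · exact hne (K_add_eq_zero.1 h2.symm)
      · exact hne h2
      · exact hβ1 (left_eq_add.1 h2)
    rw [ind_true hE, ind_false hE', ind_true (ev_cov hE), add_zero]
  · rw [ind_false hE, zero_add]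
    refine ind_congr ?_
    rw [hs]
    constructor
    · rintro ⟨h2, h3 | h3 | h3⟩
      · exact absurd ⟨h2, Or.inl h3⟩ hE
      · exact absurd ⟨h2, Or.inr h3⟩ hE
      · exact ⟨h2, h3.2⟩
    · rintro ⟨h2, h3⟩
      exact ⟨h2, Or.inr (Or.inr ⟨hc, h3⟩)⟩

lemma cc_single_ne {t : Fin k × Fin nA → ZMod 2} {j : Fin k} {w : Fin nA → ZMod 2}
    {β : ZMod 2} {a : Fin nA} (hw : w a ≠ β) : cc t j w β (Pi.single a 1) = 0 := by
  unfold cc
  refine Finset.sum_eq_zero fun b _ => ?_
  by_cases hb : b = a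
  · subst hb
    rw [if_neg hw]
  · rw [Pi.single_eq_of_ne hb, mul_zero, ite_self]

/-- The two functions of a class which is not compatible with the side have the same mass. -/
lemma avg_ev_sh {R : (Fin k × Fin nA → K l) → K l × ZMod 2} {j : Fin k} {w : Fin nA → ZMod 2}
    {θ0 θ1 : K l} (hR : ∀ u M, R (M + dis j w u θ0 θ1) = R M) {β : ZMod 2}
    {h : (Fin k × Fin nA → ZMod 2) × K l} (hc : ¬ Con j w β h.1) :
    (avg fun M : Fin k × Fin nA → K l => ind (Ev R θ0 θ1 β h M)) =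
      avg fun M : Fin k × Fin nA → K l => ind (Ev R θ0 θ1 β (sh θ0 θ1 β h) M) := by
  unfold Vale.Agent.P339.R2.H375.Con at hc
  push Not at hc
  obtain ⟨a, ha, hwa⟩ := hc
  rw [← avg_add_right (dis j w (Pi.single a 1) θ0 θ1)]
  refine avg_congr fun M => ind_congr ?_
  unfold Ev
  rw [hR]
  have e1 : aff h (M + dis j w (Pi.single a 1) θ0 θ1) = aff (sh θ0 θ1 β h) M := by
    rw [aff_sh]
    unfold aff
    rw [evl_add, evl_dis]
    rcases bit_cases β with rfl | rfl
    · have hw1 : w a = 1 := bit_ne_zero hwa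
      rw [cc_single_ne hwa, cc_single ha hw1, zero_smul, one_smul, zero_add, zero_add, th_one]
      abel
    · have hw0 : w a = 0 := (bit_cases (w a)).resolve_right hwa
      have h11 : (1 : ZMod 2) + 1 = 0 := by decide
      rw [cc_single_ne hwa, cc_single ha hw0, zero_smul, one_smul, add_zero, h11, th_zero]
      abel
  rw [e1]

lemma inG_four {j : Fin k} {w : Fin nA → ZMod 2} {θ0 θ1 : K l} {β : ZMod 2}
    {t : Fin k × Fin nA → ZMod 2} {z : K l} (h : InG j w θ0 θ1 β t z) :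
    ∃ a b : ZMod 2, z = a • θ0 + b • θ1 := by
  have hth : ∀ γ : ZMod 2, ∃ a b : ZMod 2, th θ0 θ1 γ = a • θ0 + b • θ1 := by
    intro γ
    rcases bit_cases γ with rfl | rfl
    · exact ⟨1, 0, by rw [th_zero, one_smul, zero_smul, add_zero]⟩
    · exact ⟨0, 1, by rw [th_one, one_smul, zero_smul, zero_add]⟩
  rcases h with h | h | ⟨_, h | h⟩
  · exact ⟨0, 0, by rw [h, zero_smul, zero_smul, add_zero]⟩
  · rw [h]
    exact hth β
  · rw [h]
    exact hth (β + 1)
  · exact ⟨1, 1, by rw [h, one_smul, one_smul]⟩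

lemma inG_of_not_con {j : Fin k} {w : Fin nA → ZMod 2} {θ0 θ1 : K l} {β : ZMod 2}
    {t : Fin k × Fin nA → ZMod 2} (hc : ¬ Con j w β t) (a b : ZMod 2) :
    InG j w θ0 θ1 β t (a • θ0 + b • θ1) := by
  unfold InG
  rcases bit_cases a with rfl | rfl <;> rcases bit_cases b with rfl | rfl
  · left
    rw [zero_smul, zero_smul, add_zero]
  · rw [zero_smul, one_smul, zero_add]
    rcases bit_cases β with rfl | rfl
    · right
      right
      refine ⟨hc, Or.inl ?_⟩
      rw [zero_add, th_one]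
    · right
      left
      rw [th_one]
  · rw [zero_smul, one_smul, add_zero]
    rcases bit_cases β with rfl | rfl
    · right
      left
      rw [th_zero]
    · right
      right
      refine ⟨hc, Or.inl ?_⟩
      have h11 : (1 : ZMod 2) + 1 = 0 := by decide
      rw [h11, th_zero]
  · right
    right
    refine ⟨hc, Or.inr ?_⟩
    rw [one_smul, one_smul]

lemma inG_add' {j : Fin k} {w : Fin nA → ZMod 2} {θ0 θ1 : K l} {β : ZMod 2}
    {t : Fin k × Fin nA → ZMod 2} {z z' : K l} (h : InG j w θ0 θ1 β t z)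
    (h' : InG j w θ0 θ1 β t z') : InG j w θ0 θ1 β t (z + z') := by
  by_cases hc : Con j w β t
  · have e1 : ∀ x, InG j w θ0 θ1 β t x → x = 0 ∨ x = th θ0 θ1 β := by
      rintro x (hx | hx | hx)
      · exact Or.inl hx
      · exact Or.inr hx
      · exact absurd hc hx.1
    rcases e1 _ h with rfl | rfl <;> rcases e1 _ h' with rfl | rfl
    · left
      rw [zero_add]
    · right
      left
      rw [zero_add]
    · right
      left
      rw [add_zero]
    · left
      exact K_add_self _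
  · obtain ⟨a, b, rfl⟩ := inG_four h
    obtain ⟨a', b', rfl⟩ := inG_four h'
    have : a • θ0 + b • θ1 + (a' • θ0 + b' • θ1) = (a + a') • θ0 + (b + b') • θ1 := by
      module
    rw [this]
    exact inG_of_not_con hc _ _

/-- Two different functions of a list seldom cover the same point. -/
lemma avg_two_cov' (R : (Fin k × Fin nA → K l) → K l × ZMod 2) (j : Fin k)
    (w : Fin nA → ZMod 2) (θ0 θ1 : K l) (β : ZMod 2) {h h' : (Fin k × Fin nA → ZMod 2) × K l}
    (hne : h.1 ≠ h'.1 ∨ ¬ InG j w θ0 θ1 β h.1 (h.2 + h'.2)) :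
    (avg fun M : Fin k × Fin nA → K l =>
      ind (Cov R j w θ0 θ1 β h M ∧ Cov R j w θ0 θ1 β h' M)) ≤ 4 / 2 ^ l := by
  have hpow : (0 : ℝ) ≤ 4 / 2 ^ l := by positivity
  have hsum : ∀ M, Cov R j w θ0 θ1 β h M → Cov R j w θ0 θ1 β h' M →
      ((R M).1 + aff h M) + ((R M).1 + aff h' M) = evl (h.1 + h'.1) M + (h.2 + h'.2) := by
    intro M _ _
    unfold aff
    rw [evl_add_left]
    have : (R M).1 + (evl h.1 M + h.2) + ((R M).1 + (evl h'.1 M + h'.2)) =
      ((R M).1 + (R M).1) + (evl h.1 M + evl h'.1 M + (h.2 + h'.2)) := by abel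
    rw [this, K_add_self, zero_add]
  by_cases ht : h.1 = h'.1
  · have hn : ¬ InG j w θ0 θ1 β h.1 (h.2 + h'.2) := hne.resolve_left fun hn => hn ht
    refine avg_le_of_le hpow fun M => ?_
    rw [ind_false]
    · exact hpow
    · rintro ⟨h1, h2⟩
      apply hn
      have h3 := hsum M h1 h2
      rw [← ht] at h3
      have e0 : evl (h.1 + h.1) M = 0 := by
        rw [evl_add_left, K_add_self]
      rw [e0, zero_add] at h3
      rw [← h3]
      refine inG_add' h1.2 ?_
      rw [ht]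
      exact h2.2
  · have h1 : h.1 + h'.1 ≠ 0 := fun h2 => ht (pairing_dot.add_eq_zero.1 h2)
    have h2 : ∀ M, ind (Cov R j w θ0 θ1 β h M ∧ Cov R j w θ0 θ1 β h' M) ≤
        ∑ a : ZMod 2, ∑ b : ZMod 2,
          ind (evl (h.1 + h'.1) M = (a • θ0 + b • θ1) + (h.2 + h'.2)) := by
      intro M
      have hs0 : ∀ a : ZMod 2, 0 ≤ ∑ b : ZMod 2,
          ind (evl (h.1 + h'.1) M = (a • θ0 + b • θ1) + (h.2 + h'.2)) := fun a =>
        Finset.sum_nonneg fun b _ => ind_nonneg _
      by_cases hC : Cov R j w θ0 θ1 β h M ∧ Cov R j w θ0 θ1 β h' M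
      · obtain ⟨a, b, hab⟩ := inG_four hC.1.2
        obtain ⟨a', b', hab'⟩ := inG_four hC.2.2
        have h3 := hsum M hC.1 hC.2
        rw [hab, hab'] at h3
        have h4 : evl (h.1 + h'.1) M = ((a + a') • θ0 + (b + b') • θ1) + (h.2 + h'.2) := by
          have e1 : (a + a') • θ0 + (b + b') • θ1 = a • θ0 + b • θ1 + (a' • θ0 + b' • θ1) := by
            module
          rw [e1, h3, add_assoc, K_add_self, add_zero]
        rw [ind_true hC]
        have e2 := Finset.single_le_sum (f := fun a : ZMod 2 => ∑ b : ZMod 2,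
          ind (evl (h.1 + h'.1) M = (a • θ0 + b • θ1) + (h.2 + h'.2)))
          (fun a _ => hs0 a) (Finset.mem_univ (a + a'))
        have e3 := Finset.single_le_sum (f := fun b : ZMod 2 =>
          ind (evl (h.1 + h'.1) M = ((a + a') • θ0 + b • θ1) + (h.2 + h'.2)))
          (fun b _ => ind_nonneg (evl (h.1 + h'.1) M =
            ((a + a') • θ0 + b • θ1) + (h.2 + h'.2))) (Finset.mem_univ (b + b'))
        have e4 := ind_true h4
        exact (le_of_eq e4.symm).trans (e3.trans e2)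
      · rw [ind_false hC]
        exact Finset.sum_nonneg fun a _ => hs0 a
    refine (avg_mono h2).trans ?_
    simp only [avg_sum]
    have h3 : ∀ a b : ZMod 2, (avg fun M : Fin k × Fin nA → K l =>
        ind (evl (h.1 + h'.1) M = (a • θ0 + b • θ1) + (h.2 + h'.2))) = 1 / 2 ^ l := fun a b =>
      avg_evl_eq h1 _
    simp only [h3]
    rw [Finset.sum_const, Finset.sum_const, Finset.card_univ, ZMod.card, nsmul_eq_mul,
      nsmul_eq_mul]
    refine le_of_eq ?_
    push_cast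
    ring

/-- The function is not in the list of the centre table, up to the vector of the side. -/
def Alw (HG : Finset ((Fin k × Fin nA → ZMod 2) × K l)) (j : Fin k) (w : Fin nA → ZMod 2)
    (θ0 θ1 : K l) (β : ZMod 2) (g : (Fin k × Fin nA → ZMod 2) × K l) : Prop :=
  ¬ (g.1 ⬝ᵥ atb j w = β ∧ (g ∈ HG ∨ (g.1, g.2 + th θ0 θ1 β) ∈ HG))

open Classical in
/-- A function of the class which is allowed. -/
noncomputable def rp (HG : Finset ((Fin k × Fin nA → ZMod 2) × K l)) (j : Fin k)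
    (w : Fin nA → ZMod 2) (θ0 θ1 : K l) (β : ZMod 2) (h : (Fin k × Fin nA → ZMod 2) × K l) :
    (Fin k × Fin nA → ZMod 2) × K l :=
  if Alw HG j w θ0 θ1 β h then h else sh θ0 θ1 β h

/-- The properties of the representative. -/
lemma rp_spec {R : (Fin k × Fin nA → K l) → K l × ZMod 2} {j : Fin k} {w : Fin nA → ZMod 2}
    {θ0 θ1 : K l} (h0 : θ0 ≠ 0) (h1 : θ1 ≠ 0) (hR : ∀ u M, R (M + dis j w u θ0 θ1) = R M)
    {HG : Finset ((Fin k × Fin nA → ZMod 2) × K l)}
    (hbad : ∀ h ∈ HG, ¬ Bad1 h.1 j w) (hgen : GenT HG θ0 θ1) (β : ZMod 2)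
    (h : (Fin k × Fin nA → ZMod 2) × K l) :
    Alw HG j w θ0 θ1 β (rp HG j w θ0 θ1 β h) ∧
    (∀ M, Ev R θ0 θ1 β (rp HG j w θ0 θ1 β h) M → Cov R j w θ0 θ1 β h M) ∧
    (avg fun M : Fin k × Fin nA → K l => ind (Ev R θ0 θ1 β (rp HG j w θ0 θ1 β h) M)) =
      if Con j w β h.1 then mc R j w θ0 θ1 β h else 1 / 2 * mc R j w θ0 θ1 β h := by
  obtain ⟨h01, hgen⟩ := hgen
  by_cases hc : Con j w β h.1
  · have hA : Alw HG j w θ0 θ1 β h := by
      rintro ⟨h2, h3⟩
      have hb : Bad1 h.1 j w := fun a ha => (hc a ha).trans h2.symm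
      rcases h3 with h3 | h3
      · exact hbad _ h3 hb
      · exact hbad _ h3 hb
    have e1 : rp HG j w θ0 θ1 β h = h := if_pos hA
    rw [e1, if_pos hc]
    refine ⟨hA, fun M hM => ev_cov hM, ?_⟩
    unfold mc
    exact avg_congr fun M => ind_congr (cov_con hc M).symm
  · have hm : mc R j w θ0 θ1 β h = (avg fun M : Fin k × Fin nA → K l =>
        ind (Ev R θ0 θ1 β h M)) + avg fun M : Fin k × Fin nA → K l =>
        ind (Ev R θ0 θ1 β (sh θ0 θ1 β h) M) := by
      unfold mc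
      rw [← avg_add]
      exact avg_congr fun M => ind_cov_not_con h0 h1 h01 hc M
    have hs := avg_ev_sh hR hc
    rw [if_neg hc]
    by_cases hA : Alw HG j w θ0 θ1 β h
    · have e1 : rp HG j w θ0 θ1 β h = h := if_pos hA
      rw [e1]
      refine ⟨hA, fun M hM => ev_cov hM, ?_⟩
      linarith
    · have e1 : rp HG j w θ0 θ1 β h = sh θ0 θ1 β h := if_neg hA
      rw [e1]
      refine ⟨?_, fun M hM => sh_cov hc hM, ?_⟩
      · unfold Alw at hA
        rw [not_not] at hA
        rintro ⟨_, h3⟩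
        obtain ⟨_, h2⟩ := hA
        unfold sh at h3
        dsimp only at h3
        -- two members of the list with the same linear part
        have key : ∀ e e' : K l, (e = 0 ∨ e = th θ0 θ1 β) → (e' = 0 ∨ e' = th θ0 θ1 β) →
            (h.1, h.2 + e) ∈ HG → (h.1, h.2 + th θ0 θ1 (β + 1) + e') ∈ HG → False := by
          intro e e' he he' m1 m2
          obtain ⟨g0, g1, g2⟩ := hgen _ m1 _ m2 rfl
          dsimp only at g0 g1 g2
          have e2 : h.2 + e + (h.2 + th θ0 θ1 (β + 1) + e') = th θ0 θ1 (β + 1) + (e + e') := by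
            have : h.2 + e + (h.2 + th θ0 θ1 (β + 1) + e') =
              (h.2 + h.2) + (th θ0 θ1 (β + 1) + (e + e')) := by abel
            rw [this, K_add_self, zero_add]
          rw [e2] at g0 g1 g2
          have e3 : e + e' = 0 ∨ e + e' = th θ0 θ1 β := by
            rcases he with rfl | rfl <;> rcases he' with rfl | rfl
            · left
              rw [zero_add]
            · right
              rw [zero_add]
            · right
              rw [add_zero]
            · left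
              exact K_add_self _
          rcases e3 with e3 | e3
          · rw [e3, add_zero] at g0 g1
            rcases bit_cases (β + 1) with hb | hb
            · rw [hb, th_zero] at g0
              exact g0 rfl
            · rw [hb, th_one] at g1
              exact g1 rfl
          · rw [e3, add_comm (th θ0 θ1 (β + 1)), th_add] at g2
            exact g2 rfl
        have m0 : ∀ v : K l, v + 0 = v := add_zero
        rcases h2 with h2 | h2 <;> rcases h3 with h3 | h3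
        · exact key 0 0 (Or.inl rfl) (Or.inl rfl) (by rw [m0]; exact h2) (by rw [m0]; exact h3)
        · exact key 0 _ (Or.inl rfl) (Or.inr rfl) (by rw [m0]; exact h2) h3
        · exact key _ 0 (Or.inr rfl) (Or.inl rfl) h2 (by rw [m0]; exact h3)
        · exact key _ _ (Or.inr rfl) (Or.inr rfl) h2 h3
      · linarith

/-- A function which is not in the list has small agreement. -/
lemma mu_le_of_notMem {G : (Fin k × Fin nA → K l) → K l}
    {HG : Finset ((Fin k × Fin nA → ZMod 2) × K l)} {d : ℝ} (hd : 0 < d)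
    (hcard : (HG.card : ℝ) * d ≤ 1) (hG : ∀ t g, agr (rest G HG) G t g ≤ d)
    {g : (Fin k × Fin nA → ZMod 2) × K l} (hg : g ∉ HG) :
    mu G g ≤ d + 1 / d / 2 ^ l := by
  have h1 : ∀ M, ind (G M = aff g M) ≤ rest G HG M * ind (G M = evl g.1 M + g.2) +
      ∑ h ∈ HG, ind (aff h M = aff g M) := by
    intro M
    have hs : 0 ≤ ∑ h ∈ HG, ind (aff h M = aff g M) :=
      Finset.sum_nonneg fun h _ => ind_nonneg _
    by_cases hr : ∀ h ∈ HG, G M ≠ aff h M
    · have : rest G HG M = 1 := ind_true hr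
      rw [this, one_mul]
      have e1 : ind (G M = aff g M) = ind (G M = evl g.1 M + g.2) := ind_congr Iff.rfl
      linarith
    · have e0 : rest G HG M = 0 := ind_false hr
      rw [e0, zero_mul, zero_add]
      push Not at hr
      obtain ⟨h, hh, hGh⟩ := hr
      have e1 := Finset.single_le_sum (f := fun h => ind (aff h M = aff g M))
        (fun h _ => ind_nonneg (aff h M = aff g M)) hh
      refine le_trans (ind_mono fun h2 => ?_) e1
      rw [← hGh, h2]
  unfold mu
  refine (avg_mono h1).trans ?_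
  rw [avg_add, avg_sum]
  have h2 : ∑ h ∈ HG, (avg fun M : Fin k × Fin nA → K l => ind (aff h M = aff g M)) ≤
      HG.card * (1 / 2 ^ l) := by
    refine (Finset.sum_le_sum fun h hh => avg_aff_eq (h := h) (h' := g) ?_).trans (le_of_eq ?_)
    · rintro rfl
      exact hg hh
    · rw [Finset.sum_const, nsmul_eq_mul]
  have h3 : (HG.card : ℝ) * (1 / 2 ^ l) ≤ 1 / d / 2 ^ l := by
    have e1 : (HG.card : ℝ) ≤ 1 / d := by
      rw [le_div_iff₀ hd]
      exact hcard
    have e2 : (0 : ℝ) ≤ 1 / 2 ^ l := by positivity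
    refine (mul_le_mul_of_nonneg_right e1 e2).trans (le_of_eq ?_)
    ring
  have h4 := hG g.1 g.2
  unfold agr at h4
  exact add_le_add h4 (h2.trans h3)

/-- The agreement of the centre table with an allowed function on a line. -/
noncomputable def bb (G : (Fin k × Fin nA → K l) → K l) (j : Fin k) (w : Fin nA → ZMod 2)
    (β : ZMod 2) (g : (Fin k × Fin nA → ZMod 2) × K l) (z : K l) (M : Fin k × Fin nA → K l) :
    ℝ := avg fun φ : K l => ind (G (M + tns (atb j w) φ) = aff g M + z + β • φ)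

lemma bb_nonneg (G : (Fin k × Fin nA → K l) → K l) (j : Fin k) (w : Fin nA → ZMod 2)
    (β : ZMod 2) (g : (Fin k × Fin nA → ZMod 2) × K l) (z : K l) (M : Fin k × Fin nA → K l) :
    0 ≤ bb G j w β g z M := avg_nonneg fun _ => ind_nonneg _

lemma avg_bb_le {G : (Fin k × Fin nA → K l) → K l} {j : Fin k} {w : Fin nA → ZMod 2}
    {θ0 θ1 : K l} {HG : Finset ((Fin k × Fin nA → ZMod 2) × K l)} {d : ℝ} (hd : 0 < d)
    (hcard : (HG.card : ℝ) * d ≤ 1) (hG : ∀ t g, agr (rest G HG) G t g ≤ d) {β : ZMod 2}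
    {g : (Fin k × Fin nA → ZMod 2) × K l} (hA : Alw HG j w θ0 θ1 β g) {z : K l}
    (hz : z = 0 ∨ z = th θ0 θ1 β) :
    avg (bb G j w β g z) ≤ d + 1 / d / 2 ^ l + 1 / 2 ^ l := by
  have hp1 : (0 : ℝ) ≤ 1 / 2 ^ l := by positivity
  have hp2 : (0 : ℝ) ≤ 1 / d / 2 ^ l := by positivity
  unfold bb
  rw [avg_comm]
  have h1 : ∀ φ : K l, (avg fun M : Fin k × Fin nA → K l =>
      ind (G (M + tns (atb j w) φ) = aff g M + z + β • φ)) =
      avg fun M : Fin k × Fin nA → K l =>
        ind (G M = aff g M + (g.1 ⬝ᵥ atb j w) • φ + z + β • φ) := by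
    intro φ
    rw [← avg_add_right (tns (atb j w) φ) fun M : Fin k × Fin nA → K l =>
      ind (G M = aff g M + (g.1 ⬝ᵥ atb j w) • φ + z + β • φ)]
    refine avg_congr fun M => ?_
    have e1 : aff g (M + tns (atb j w) φ) + (g.1 ⬝ᵥ atb j w) • φ = aff g M := by
      unfold aff
      rw [evl_line]
      have : evl g.1 M + (g.1 ⬝ᵥ atb j w) • φ + g.2 + (g.1 ⬝ᵥ atb j w) • φ =
        evl g.1 M + g.2 + ((g.1 ⬝ᵥ atb j w) • φ + (g.1 ⬝ᵥ atb j w) • φ) := by abel
      rw [this, K_add_self, add_zero]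
    rw [e1]
  simp only [h1]
  by_cases hb : g.1 ⬝ᵥ atb j w = β
  · have h2 : ∀ (φ : K l) (M : Fin k × Fin nA → K l),
        ind (G M = aff g M + (g.1 ⬝ᵥ atb j w) • φ + z + β • φ) =
        ind (G M = aff (g.1, g.2 + z) M) := by
      intro φ M
      rw [aff_shift, hb]
      have : aff g M + β • φ + z + β • φ = aff (g.1, g.2) M + z + (β • φ + β • φ) := by
        have : aff g M = aff (g.1, g.2) M := rfl
        rw [this]
        abel
      rw [this, K_add_self, add_zero]
    simp only [h2]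
    rw [avg_const]
    have hg : (g.1, g.2 + z) ∉ HG := by
      intro hmem
      apply hA
      refine ⟨hb, ?_⟩
      rcases hz with rfl | rfl
      · left
        rw [add_zero] at hmem
        exact hmem
      · right
        exact hmem
    have h3 := mu_le_of_notMem hd hcard hG hg
    unfold mu at h3
    linarith
  · have h2 : ∀ (φ : K l) (M : Fin k × Fin nA → K l),
        ind (G M = aff g M + (g.1 ⬝ᵥ atb j w) • φ + z + β • φ) =
        ind (φ = G M + aff g M + z) := by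
      intro φ M
      have e1 : (g.1 ⬝ᵥ atb j w) • φ + β • φ = φ := by
        rw [← add_smul]
        have : g.1 ⬝ᵥ atb j w + β = 1 := by
          have key : ∀ x y : ZMod 2, ¬ x = y → x + y = 1 := by decide
          exact key _ _ hb
        rw [this, one_smul]
      have e2 : aff g M + (g.1 ⬝ᵥ atb j w) • φ + z + β • φ = aff g M + z + φ := by
        have : aff g M + (g.1 ⬝ᵥ atb j w) • φ + z + β • φ =
          aff g M + z + ((g.1 ⬝ᵥ atb j w) • φ + β • φ) := by abel
        rw [this, e1]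
      rw [e2]
      refine ind_congr ?_
      constructor
      · intro h
        rw [h]
        have : aff g M + z + φ + aff g M + z = (aff g M + aff g M) + (z + z) + φ := by abel
        rw [this, K_add_self, K_add_self, zero_add, zero_add]
      · intro h
        rw [h]
        have : aff g M + z + (G M + aff g M + z) = (aff g M + aff g M) + (z + z) + G M := by
          abel
        rw [this, K_add_self, K_add_self, zero_add, zero_add]
    simp only [h2]
    rw [avg_comm]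
    simp only [avg_K_eq]
    rw [avg_const]
    linarith

/-- The number of the representatives which agree with the table of the second kind. -/
noncomputable def FF (R : (Fin k × Fin nA → K l) → K l × ZMod 2)
    (HG : Finset ((Fin k × Fin nA → ZMod 2) × K l)) (j : Fin k) (w : Fin nA → ZMod 2)
    (θ0 θ1 : K l) (H : ZMod 2 → Finset ((Fin k × Fin nA → ZMod 2) × K l))
    (M : Fin k × Fin nA → K l) : ℝ :=
  ∑ β, ∑ h ∈ H β, ind (Ev R θ0 θ1 β (rp HG j w θ0 θ1 β h) M)

/-- The number of the pairs which cover the point. -/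
noncomputable def OO (R : (Fin k × Fin nA → K l) → K l × ZMod 2) (j : Fin k)
    (w : Fin nA → ZMod 2) (θ0 θ1 : K l)
    (H : ZMod 2 → Finset ((Fin k × Fin nA → ZMod 2) × K l))
    (M : Fin k × Fin nA → K l) : ℝ :=
  ∑ β, ∑ h ∈ H β, ∑ h' ∈ H β,
    if h ≠ h' then ind (Cov R j w θ0 θ1 β h M ∧ Cov R j w θ0 θ1 β h' M) else 0

/-- The agreements of the centre table with the allowed functions. -/
noncomputable def BB (G : (Fin k × Fin nA → K l) → K l)
    (HG : Finset ((Fin k × Fin nA → ZMod 2) × K l)) (j : Fin k) (w : Fin nA → ZMod 2)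
    (θ0 θ1 : K l) (H : ZMod 2 → Finset ((Fin k × Fin nA → ZMod 2) × K l))
    (M : Fin k × Fin nA → K l) : ℝ :=
  ∑ β, ∑ h ∈ H β, (bb G j w β (rp HG j w θ0 θ1 β h) 0 M +
    bb G j w β (rp HG j w θ0 θ1 β h) (th θ0 θ1 β) M)

lemma OO_term_nonneg (R : (Fin k × Fin nA → K l) → K l × ZMod 2) (j : Fin k)
    (w : Fin nA → ZMod 2) (θ0 θ1 : K l) (β : ZMod 2)
    (h h' : (Fin k × Fin nA → ZMod 2) × K l) (M : Fin k × Fin nA → K l) :
    0 ≤ if h ≠ h' then ind (Cov R j w θ0 θ1 β h M ∧ Cov R j w θ0 θ1 β h' M) else 0 := by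
  split_ifs
  · exact ind_nonneg _
  · exact le_rfl

/-- The bound at a point. -/
lemma point_le {R : (Fin k × Fin nA → K l) → K l × ZMod 2} {j : Fin k}
    {w : Fin nA → ZMod 2} {θ0 θ1 : K l}
    {H : ZMod 2 → Finset ((Fin k × Fin nA → ZMod 2) × K l)}
    {G : (Fin k × Fin nA → K l) → K l} {HG : Finset ((Fin k × Fin nA → ZMod 2) × K l)}
    (hcov : ∀ β h M, Ev R θ0 θ1 β (rp HG j w θ0 θ1 β h) M → Cov R j w θ0 θ1 β h M)
    (L : (Fin k × Fin nA → K l) → K l × ZMod 2) (M : Fin k × Fin nA → K l) :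
    (avg fun φ : K l => ind (G (M + tns (atb j w) φ) = (L M).1 + (L M).2 • φ)) +
      ind (SatN (L M) (R M) θ0 θ1) ≤
      2 - FF R HG j w θ0 θ1 H M + OO R j w θ0 θ1 H M + BB G HG j w θ0 θ1 H M := by
  have hO : 0 ≤ OO R j w θ0 θ1 H M := by
    unfold OO
    exact Finset.sum_nonneg fun β _ => Finset.sum_nonneg fun h _ =>
      Finset.sum_nonneg fun h' _ => OO_term_nonneg R j w θ0 θ1 β h h' M
  have hB0 : ∀ (β : ZMod 2) (h : (Fin k × Fin nA → ZMod 2) × K l),
      0 ≤ bb G j w β (rp HG j w θ0 θ1 β h) 0 M +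
        bb G j w β (rp HG j w θ0 θ1 β h) (th θ0 θ1 β) M := fun β h =>
    add_nonneg (bb_nonneg _ _ _ _ _ _ _) (bb_nonneg _ _ _ _ _ _ _)
  have hB : 0 ≤ BB G HG j w θ0 θ1 H M := by
    unfold BB
    exact Finset.sum_nonneg fun β _ => Finset.sum_nonneg fun h _ => hB0 β h
  have hA1 : (avg fun φ : K l => ind (G (M + tns (atb j w) φ) = (L M).1 + (L M).2 • φ)) ≤ 1 :=
    avg_le_of_le zero_le_one fun φ => ind_le_one _
  have hN1 := ind_le_one (SatN (L M) (R M) θ0 θ1)
  by_cases hex : ∃ β, ∃ h ∈ H β, Ev R θ0 θ1 β (rp HG j w θ0 θ1 β h) M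
  · obtain ⟨β, h, hh, hE⟩ := hex
    have hF : FF R HG j w θ0 θ1 H M ≤ 1 + OO R j w θ0 θ1 H M := by
      have e1 : FF R HG j w θ0 θ1 H M =
          ∑ h ∈ H β, ind (Ev R θ0 θ1 β (rp HG j w θ0 θ1 β h) M) := by
        unfold FF
        refine Finset.sum_eq_single β (fun b _ hb => Finset.sum_eq_zero fun h' _ => ind_false ?_)
          fun hβ => absurd (Finset.mem_univ β) hβ
        intro hE'
        exact hb (hE'.1.symm.trans hE.1)
      rw [e1, ← Finset.add_sum_erase (H β) _ hh, ind_true hE]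
      have e2 : ∑ h' ∈ (H β).erase h, ind (Ev R θ0 θ1 β (rp HG j w θ0 θ1 β h') M) ≤
          ∑ h' ∈ H β, if h ≠ h' then
            ind (Cov R j w θ0 θ1 β h M ∧ Cov R j w θ0 θ1 β h' M) else 0 := by
        rw [← Finset.add_sum_erase (H β) _ hh, if_neg (fun hn => hn rfl), zero_add]
        refine Finset.sum_le_sum fun h' hh' => ?_
        rw [if_pos (Finset.ne_of_mem_erase hh').symm]
        exact ind_mono fun hE' => ⟨hcov β h M hE, hcov β h' M hE'⟩
      have e3 := Finset.single_le_sum (f := fun h => ∑ h' ∈ H β, if h ≠ h' then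
        ind (Cov R j w θ0 θ1 β h M ∧ Cov R j w θ0 θ1 β h' M) else 0)
        (fun h _ => Finset.sum_nonneg fun h' _ => OO_term_nonneg R j w θ0 θ1 β h h' M) hh
      have e4 := Finset.single_le_sum (f := fun β => ∑ h ∈ H β, ∑ h' ∈ H β, if h ≠ h' then
        ind (Cov R j w θ0 θ1 β h M ∧ Cov R j w θ0 θ1 β h' M) else 0)
        (fun β _ => Finset.sum_nonneg fun h _ => Finset.sum_nonneg fun h' _ =>
          OO_term_nonneg R j w θ0 θ1 β h h' M) (Finset.mem_univ β)
      have e5 : (∑ h ∈ H β, ∑ h' ∈ H β, if h ≠ h' then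
        ind (Cov R j w θ0 θ1 β h M ∧ Cov R j w θ0 θ1 β h' M) else 0) ≤
          OO R j w θ0 θ1 H M := e4
      have e6 : (∑ h' ∈ H β, if h ≠ h' then
        ind (Cov R j w θ0 θ1 β h M ∧ Cov R j w θ0 θ1 β h' M) else 0) ≤
          ∑ h ∈ H β, ∑ h' ∈ H β, if h ≠ h' then
        ind (Cov R j w θ0 θ1 β h M ∧ Cov R j w θ0 θ1 β h' M) else 0 := e3
      linarith
    by_cases hS : SatN (L M) (R M) θ0 θ1
    · have hbb : (avg fun φ : K l =>
          ind (G (M + tns (atb j w) φ) = (L M).1 + (L M).2 • φ)) ≤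
          bb G j w β (rp HG j w θ0 θ1 β h) 0 M +
            bb G j w β (rp HG j w θ0 θ1 β h) (th θ0 θ1 β) M := by
        obtain ⟨hS1, hS2⟩ := hS
        obtain ⟨hE1, hE2⟩ := hE
        have hLβ : (L M).2 = β := hS1.trans hE1
        have hS3 : (L M).1 + (R M).1 = 0 ∨ (L M).1 + (R M).1 = th θ0 θ1 β := by
          rcases hS2 with hS2 | hS2
          · exact Or.inl hS2
          · right
            rw [hS2, hLβ]
            rfl
        have key : ∀ x r a θ : K l, (x + r = 0 ∨ x + r = θ) → (r + a = 0 ∨ r + a = θ) →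
            x = a + 0 ∨ x = a + θ := by
          intro x r a θ hx hr
          have hxa : ∀ y z : K l, x + r = y → r + a = z → x = a + (y + z) := by
            rintro y z rfl rfl
            have : a + (x + r + (r + a)) = x + (r + r) + (a + a) := by abel
            rw [this, K_add_self, K_add_self, add_zero, add_zero]
          rcases hx with hx | hx <;> rcases hr with hr | hr
          · left
            rw [hxa _ _ hx hr, add_zero]
          · right
            rw [hxa _ _ hx hr, zero_add]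
          · right
            rw [hxa _ _ hx hr, add_zero]
          · left
            rw [hxa _ _ hx hr, K_add_self]
        rcases key _ _ _ _ hS3 hE2 with hx | hx
        · have e1 : (avg fun φ : K l =>
              ind (G (M + tns (atb j w) φ) = (L M).1 + (L M).2 • φ)) =
              bb G j w β (rp HG j w θ0 θ1 β h) 0 M := by
            unfold bb
            rw [hLβ, hx]
          rw [e1]
          linarith [bb_nonneg G j w β (rp HG j w θ0 θ1 β h) (th θ0 θ1 β) M]
        · have e1 : (avg fun φ : K l =>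
              ind (G (M + tns (atb j w) φ) = (L M).1 + (L M).2 • φ)) =
              bb G j w β (rp HG j w θ0 θ1 β h) (th θ0 θ1 β) M := by
            unfold bb
            rw [hLβ, hx]
          rw [e1]
          linarith [bb_nonneg G j w β (rp HG j w θ0 θ1 β h) 0 M]
      have e3 := Finset.single_le_sum (f := fun h => bb G j w β (rp HG j w θ0 θ1 β h) 0 M +
        bb G j w β (rp HG j w θ0 θ1 β h) (th θ0 θ1 β) M) (fun h _ => hB0 β h) hh
      have e4 := Finset.single_le_sum (f := fun β => ∑ h ∈ H β,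
        (bb G j w β (rp HG j w θ0 θ1 β h) 0 M +
        bb G j w β (rp HG j w θ0 θ1 β h) (th θ0 θ1 β) M))
        (fun β _ => Finset.sum_nonneg fun h _ => hB0 β h) (Finset.mem_univ β)
      have e5 : (∑ h ∈ H β, (bb G j w β (rp HG j w θ0 θ1 β h) 0 M +
        bb G j w β (rp HG j w θ0 θ1 β h) (th θ0 θ1 β) M)) ≤ BB G HG j w θ0 θ1 H M := e4
      have e6 : bb G j w β (rp HG j w θ0 θ1 β h) 0 M +
        bb G j w β (rp HG j w θ0 θ1 β h) (th θ0 θ1 β) M ≤
        ∑ h ∈ H β, (bb G j w β (rp HG j w θ0 θ1 β h) 0 M +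
        bb G j w β (rp HG j w θ0 θ1 β h) (th θ0 θ1 β) M) := e3
      linarith
    · rw [ind_false hS]
      linarith
  · have hF : FF R HG j w θ0 θ1 H M = 0 := by
      unfold FF
      refine Finset.sum_eq_zero fun β _ => Finset.sum_eq_zero fun h hh => ind_false ?_
      intro hE
      exact hex ⟨β, h, hh, hE⟩
    rw [hF]
    linarith

lemma card_le {n : ℕ} {c : ℝ} (hc : 0 < c) (h : (n : ℝ) * c ≤ 1) : (n : ℝ) ≤ 1 / c := by
  rw [le_div_iff₀ hc]
  exact h

lemma avg_OO_le {R : (Fin k × Fin nA → K l) → K l × ZMod 2} {j : Fin k}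
    {w : Fin nA → ZMod 2} {θ0 θ1 : K l}
    {H : ZMod 2 → Finset ((Fin k × Fin nA → ZMod 2) × K l)} {c : ℝ} (hc : 0 < c)
    (hL : IsL R j w θ0 θ1 H c) :
    avg (OO R j w θ0 θ1 H) ≤ 8 * (1 / c) ^ 2 / 2 ^ l := by
  unfold OO
  simp only [avg_sum]
  have h1 : ∀ β : ZMod 2, ∑ h ∈ H β, ∑ h' ∈ H β, (avg fun M : Fin k × Fin nA → K l =>
      if h ≠ h' then ind (Cov R j w θ0 θ1 β h M ∧ Cov R j w θ0 θ1 β h' M) else 0) ≤
      4 * (1 / c) ^ 2 / 2 ^ l := by
    intro β
    have h2 : ∀ h ∈ H β, ∀ h' ∈ H β, (avg fun M : Fin k × Fin nA → K l =>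
        if h ≠ h' then ind (Cov R j w θ0 θ1 β h M ∧ Cov R j w θ0 θ1 β h' M) else 0) ≤
        4 / 2 ^ l := by
      intro h hh h' hh'
      by_cases hne : h ≠ h'
      · simp only [if_pos hne]
        exact avg_two_cov' R j w θ0 θ1 β (hL.2.1 β h hh h' hh' hne)
      · simp only [if_neg hne]
        rw [avg_zero']
        positivity
    refine (Finset.sum_le_sum fun h hh => Finset.sum_le_sum fun h' hh' =>
      h2 h hh h' hh').trans ?_
    simp only [Finset.sum_const, nsmul_eq_mul]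
    have h3 := card_le hc (hL.1 β)
    have h4 : (0 : ℝ) ≤ (H β).card := Nat.cast_nonneg _
    have h5 : (0 : ℝ) ≤ 4 / 2 ^ l := by positivity
    have h6 : (0 : ℝ) ≤ 1 / c := by positivity
    calc ((H β).card : ℝ) * ((H β).card * (4 / 2 ^ l))
        ≤ 1 / c * (1 / c * (4 / 2 ^ l)) :=
          mul_le_mul h3 (mul_le_mul_of_nonneg_right h3 h5) (mul_nonneg h4 h5) h6
      _ = 4 * (1 / c) ^ 2 / 2 ^ l := by ring
  refine (Finset.sum_le_sum fun β _ => h1 β).trans (le_of_eq ?_)
  rw [Finset.sum_const, Finset.card_univ, ZMod.card, nsmul_eq_mul]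
  push_cast
  ring

lemma avg_BB_le {R : (Fin k × Fin nA → K l) → K l × ZMod 2} {j : Fin k}
    {w : Fin nA → ZMod 2} {θ0 θ1 : K l}
    {H : ZMod 2 → Finset ((Fin k × Fin nA → ZMod 2) × K l)} {c d : ℝ} (hc : 0 < c)
    (hL : IsL R j w θ0 θ1 H c)
    {G : (Fin k × Fin nA → K l) → K l} {HG : Finset ((Fin k × Fin nA → ZMod 2) × K l)}
    (hd : 0 < d) (hcard : (HG.card : ℝ) * d ≤ 1) (hG : ∀ t g, agr (rest G HG) G t g ≤ d)
    (hA : ∀ β h, Alw HG j w θ0 θ1 β (rp HG j w θ0 θ1 β h)) :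
    avg (BB G HG j w θ0 θ1 H) ≤ 4 * (1 / c) * (d + 1 / d / 2 ^ l + 1 / 2 ^ l) := by
  set E : ℝ := d + 1 / d / 2 ^ l + 1 / 2 ^ l with hE
  have hE0 : 0 ≤ E := by positivity
  unfold BB
  simp only [avg_sum, avg_add]
  have h1 : ∀ β : ZMod 2, ∑ h ∈ H β, ((avg fun M : Fin k × Fin nA → K l =>
      bb G j w β (rp HG j w θ0 θ1 β h) 0 M) + avg fun M : Fin k × Fin nA → K l =>
      bb G j w β (rp HG j w θ0 θ1 β h) (th θ0 θ1 β) M) ≤ 2 * (1 / c) * E := by
    intro β
    have h2 : ∀ h ∈ H β, ((avg fun M : Fin k × Fin nA → K l =>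
        bb G j w β (rp HG j w θ0 θ1 β h) 0 M) + avg fun M : Fin k × Fin nA → K l =>
        bb G j w β (rp HG j w θ0 θ1 β h) (th θ0 θ1 β) M) ≤ E + E := fun h _ =>
      add_le_add (avg_bb_le hd hcard hG (hA β h) (Or.inl rfl))
        (avg_bb_le hd hcard hG (hA β h) (Or.inr rfl))
    refine (Finset.sum_le_sum h2).trans ?_
    rw [Finset.sum_const, nsmul_eq_mul]
    have h3 := card_le hc (hL.1 β)
    have h4 := mul_le_mul_of_nonneg_right h3 (add_nonneg hE0 hE0)
    refine h4.trans (le_of_eq ?_)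
    ring
  refine (Finset.sum_le_sum fun β _ => h1 β).trans (le_of_eq ?_)
  rw [Finset.sum_const, Finset.card_univ, ZMod.card, nsmul_eq_mul]
  push_cast
  ring

/-- **The bound for the two local tests.** `HG` is the list of the centre table `G`. -/
theorem vAN_le {R : (Fin k × Fin nA → K l) → K l × ZMod 2} {j : Fin k}
    {w : Fin nA → ZMod 2} {θ0 θ1 : K l} (h0 : θ0 ≠ 0) (h1 : θ1 ≠ 0)
    (hR : ∀ u M, R (M + dis j w u θ0 θ1) = R M)
    {H : ZMod 2 → Finset ((Fin k × Fin nA → ZMod 2) × K l)} {c d : ℝ} (hc : 0 < c)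
    (hL : IsL R j w θ0 θ1 H c)
    {G : (Fin k × Fin nA → K l) → K l} {HG : Finset ((Fin k × Fin nA → ZMod 2) × K l)}
    (hd : 0 < d) (hcard : (HG.card : ℝ) * d ≤ 1) (hG : ∀ t g, agr (rest G HG) G t g ≤ d)
    (hbad : ∀ h ∈ HG, ¬ Bad1 h.1 j w) (hgen : GenT HG θ0 θ1)
    (L : (Fin k × Fin nA → K l) → K l × ZMod 2) :
    vA G j w L + vN L R θ0 θ1 ≤
      2 - (Pm1 R j w θ0 θ1 H + 1 / 2 * Qm1 R j w θ0 θ1 H) +
      (8 * (1 / c) ^ 2 / 2 ^ l + 4 * (1 / c) * (d + 1 / d / 2 ^ l + 1 / 2 ^ l)) := by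
  have hsp := fun β h => rp_spec h0 h1 hR hbad hgen β h
  have hF : avg (FF R HG j w θ0 θ1 H) = Pm1 R j w θ0 θ1 H + 1 / 2 * Qm1 R j w θ0 θ1 H := by
    unfold FF Pm1 Qm1
    rw [avg_sum, Finset.mul_sum, ← Finset.sum_add_distrib]
    refine Finset.sum_congr rfl fun β _ => ?_
    rw [avg_sum, Finset.sum_congr rfl fun h _ => (hsp β h).2.2,
      ← Finset.sum_filter_add_sum_filter_not (H β) fun h => Con j w β h.1]
    congr 1
    · exact Finset.sum_congr rfl fun h hh => if_pos (Finset.mem_filter.1 hh).2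
    · rw [Finset.mul_sum]
      exact Finset.sum_congr rfl fun h hh => if_neg (Finset.mem_filter.1 hh).2
  have hO := avg_OO_le hc hL
  have hB := avg_BB_le hc hL hd hcard hG fun β h => (hsp β h).1
  have h2 : vA G j w L + vN L R θ0 θ1 ≤ avg fun M : Fin k × Fin nA → K l =>
      2 - FF R HG j w θ0 θ1 H M + OO R j w θ0 θ1 H M + BB G HG j w θ0 θ1 H M := by
    unfold vA vN
    rw [← avg_add]
    exact avg_mono fun M => point_le (fun β h M hM => (hsp β h).2.1 M hM) L M
  rw [avg_add, avg_add, avg_sub, avg_const] at h2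
  have e1 : (avg fun M : Fin k × Fin nA → K l => FF R HG j w θ0 θ1 H M) =
    avg (FF R HG j w θ0 θ1 H) := rfl
  have e2 : (avg fun M : Fin k × Fin nA → K l => OO R j w θ0 θ1 H M) =
    avg (OO R j w θ0 θ1 H) := rfl
  have e3 : (avg fun M : Fin k × Fin nA → K l => BB G HG j w θ0 θ1 H M) =
    avg (BB G HG j w θ0 θ1 H) := rfl
  rw [e1, e2, e3, hF] at h2
  linarith

end Vale.Agent.P339.R2.H620
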